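import Vale.Agent.P167.H756.S23
import Vale.Agent.P167.H375.Obs

/-!
# P167, `0 < q < 4`, [GEO]: closeness of the conformal quantity of the one-arm observable

For `QPosL ν P a p c d u v` the number `v (1 - u) = D / x_d` does not depend on the mark `c`.
* `dataH`, `polyH`, `glueH` : as `dataR`, `polyR`, `glueR` of H756, for the mark `d` alone;
* `sandH`, `sandHT`, `sandHE` : the power of the ratio of two polygons is close to `obsH`.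
-/

set_option autoImplicit false
set_option linter.unusedVariables false

open Set Topology Metric MeasureTheory Filter Bornology
open scoped ENNReal Real ComplexConjugate

namespace Vale.Agent.P167.H712

open Vale.Agent.P153.R2.R1 Vale.Agent.P153.R2.OBSV Vale.Agent.P167.H174
open Vale.Agent.P153.R2.L1 (HH IsHydro inv mem_HH isOpen_HH convex_HH)
open Vale.Agent.P164 (loewnerDomain gf Zf IsLoewnerSol)
open Vale.Agent.P167.H411 (ldv obsF obsY exists_csol exists_rsol csol_unique)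
open Vale.Agent.P167.H947 (surv flow flow_eq flow_conj flow_inj flow_gf surv_inter isOpen_surv
  differentiableOn_flow hasDerivAt_flow_real flow_rsol)
open Vale.Agent.P167.H756
open Vale.Agent.P167.H375 (obsH obsH_eq)

variable {T R : ℝ} {W W₀ : ℝ → ℝ} {t : ℝ} {ι : Type*} {l : Filter ι} {ψn : ι → ℂ → ℂ}
  {Dn : ι → Set ℂ} {an bn : ι → ℂ}

/-- The quantity `v (1 - u)` of `QPosL` in terms of the reflected inverse at `d`. -/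
theorem dataH {X' lam m₂ δ κ : ℝ} {ψ φ Gd : ℂ → ℂ} {P : Set ℂ} {a p c d ν : ℂ} {u v : ℝ}
    (hm₂ : 0 < m₂) (hn : NoCut P) (hφ : IsU φ P a p) (hφi : InjOn φ {z | 0 ≤ z.im})
    (Nd : NearG W t X' lam m₂ δ κ ψ φ Gd d) (hQ : QPosL ν P a p c d u v) :
    ∃ β D : ℝ, 0 < β ∧ 0 < D ∧ v * (1 - u) = D / β ∧ |β - xT W t X'| ≤ 527 * lam ∧
      (D : ℂ) = ν * deriv Gd d.re := by
  obtain ⟨α, β, D, k1, k2, k3, k4, k5, k6, k7, k8⟩ := hQ.transfer hn hφ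
  have hreal : ∀ x : ℝ, (x : ℂ) ∈ {z : ℂ | 0 ≤ z.im} := fun x => by simp
  have re_of : ∀ (G : ℂ → ℂ) (x : ℝ), (∀ z ∈ ball (x : ℂ) m₂, G (conj z) = conj (G z)) →
      G x = ((G x).re : ℂ) := by
    intro G x hs
    have h1 := hs x (mem_ball_self hm₂)
    rw [Complex.conj_ofReal] at h1
    exact Complex.ext (by simp) (by simpa using Complex.conj_eq_iff_im.1 h1.symm)
  have e1 : ∀ c : ℂ, ((c.re : ℝ) : ℂ) + (c.im : ℂ) * Complex.I = c := fun c =>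
    Complex.re_add_im c
  have n2 := re_of Gd d.re Nd.symm
  have g2 := (Nd.eq d.re (mem_ball_self hm₂) (by simp)).2
  rw [e1, n2] at g2
  have i2 : (Gd d.re).re = β := by
    exact_mod_cast hφi (hreal (Gd d.re).re) (hreal β) (g2.trans k5.symm)
  rw [i2] at n2
  have h2 := Nd.near d.re (mem_closedBall_self (by positivity))
  rw [n2, ← Complex.ofReal_sub, Complex.norm_real, Real.norm_eq_abs] at h2
  refine ⟨β, D, by linarith, k3, ?_, h2, ?_⟩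
  · have hb : β ≠ 0 := by linarith
    have hba : β - α ≠ 0 := by linarith
    rw [k7, k8]
    field_simp
  have h3 := compG (ψ := fun z => z + (d.im : ℂ) * Complex.I) hm₂ Nd.diff Nd.eq n2 k6
  have h4 : HasDerivWithinAt (fun z : ℂ => z + (d.im : ℂ) * Complex.I) 1
      (ball (d.re : ℂ) m₂ ∩ {z | 0 ≤ z.im}) (d.re : ℂ) :=
    ((hasDerivAt_id (d.re : ℂ)).add_const _).hasDerivWithinAt
  have h5 := uniqO hm₂ h3 h4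
  have hD : (D : ℂ) ≠ 0 := by exact_mod_cast k3.ne'
  push_cast at h5
  field_simp at h5
  exact h5.symm

/-- **The data of one polygon, at the mark `d`.** -/
theorem polyH (S : SeqF l ψn Dn an bn) {X' lam m Y Rb : ℝ} (hT : 0 ≤ T) (hR : 0 ≤ R)
    (hX'0 : 0 < X') (hX' : 8 * R ≤ X') (hX64' : 64 * T ≤ X' ^ 2) (hl0 : 0 < lam)
    (hlX : lam ≤ X' / 8192) (hm : 0 < m) (hRb : 0 ≤ Rb) (hY0 : 0 < Y) (hY : 8 * R ≤ Y)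
    (hY2 : 64 * T ≤ Y ^ 2) :
    ∃ m₂ > 0, ∃ σ > 0, ∀ δ : ℝ, 0 < δ → δ ≤ m₂ / 64 → ∀ κ : ℝ, 0 < κ → κ ≤ lam →
      ∃ h > 0, ∀ᶠ n in l, InjOn (ψn n) HH ∧ ∀ (W : ℝ → ℝ) (t : ℝ), Drv T R W t →
      ∀ (Q P : Set ℂ) (a p d : ℂ), PC h (ψn n) W t Y Rb Q P a → FlatAt P d m →
      FlatAt P p m → ‖d - ψn n X'‖ ≤ h → ‖p - bn n‖ ≤ h →
      ∃ φ Gd : ℂ → ℂ, IsU φ P a p ∧ InjOn φ {z | 0 ≤ z.im} ∧
        NearG W t X' lam m₂ δ κ (ψn n) φ Gd d ∧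
        ∀ ζ : ℂ, 0 < ζ.im → ‖ζ - X'‖ ≤ lam →
          ψn n ζ = ((d.re : ℂ) + ((m₂ / 4 : ℝ) : ℂ) * Complex.I) + (d.im : ℂ) * Complex.I →
          σ ≤ ζ.im := by
  obtain ⟨Rd, hRd, cd, hcd, hev⟩ := S.hconf Y hY0
  obtain ⟨r, hr0, hinv₂⟩ := S.inv X' lam hl0
  set m₂ : ℝ := min (m / 2) (r / 4) with hm₂
  have hm₂0 : 0 < m₂ := by positivity
  have hm₂m : m₂ ≤ m / 2 := min_le_left _ _
  have hm₂r : m₂ ≤ r / 4 := min_le_right _ _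
  obtain ⟨σ, hσ, heq⟩ := S.eqc (2 * X') (m₂ / 8 / 2) (by positivity)
  refine ⟨m₂, hm₂0, σ, hσ, fun δ hδ hδm κ hκ hκl => ?_⟩
  obtain ⟨ε, hε, himb⟩ := imb_close (M := 3 * X') (by positivity) hκ
  obtain ⟨h₁, hh₁, hφ⟩ := phiR (T := T) (R := R) S hT hR hRb hm hY0 hY hY2 hε
  obtain ⟨h₃, hh₃, hb₂⟩ := hboxR (T := T) (R := R) (Rb := Rb) S hT hR hX'0 hX' hX64' hY0 hY hY2
    hm₂0 hm₂m hδ
  obtain ⟨Mb, hMb⟩ := S.inf (r / 4) (by positivity)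
  refine ⟨min h₁ (min h₃ (r / 4)), by positivity, ?_⟩
  filter_upwards [hev, hinv₂, heq, hφ, hb₂, hMb, S.isU] with n hψ i2' hq hφ hb₂ hbn hU
  refine ⟨hψ.inj, fun W t H Q P a p d hP fd fp hd hp => ?_⟩
  set h : ℝ := min h₁ (min h₃ (r / 4)) with hh
  have q1 : h ≤ h₁ := min_le_left _ _
  have q3 : h ≤ h₃ := (min_le_right _ _).trans (min_le_left _ _)
  have q4 : h ≤ r / 4 := (min_le_right _ _).trans (min_le_right _ _)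
  obtain ⟨φ, hφU, hφi, hφc⟩ := hφ W t H Q P a p (hP.mono q1) fp (hp.trans q1)
  have hbox₂ := hb₂ W t H Q P a d (hP.mono q3) fd (hd.trans q3)
  have hfar : r / 2 ≤ ‖p - ψn n X'‖ := by
    have h1 := b_far hl0 hbn i2'
    have h2 : ‖bn n - ψn n X'‖ ≤ ‖p - ψn n X'‖ + ‖p - bn n‖ := by
      calc ‖bn n - ψn n X'‖ = ‖(p - ψn n X') - (p - bn n)‖ := by congr 1; ring
        _ ≤ _ := norm_sub_le _ _
    linarith
  obtain ⟨Gd, d1, d2, d3, d4, d5, d6⟩ := nearD (m := m) (r := r) H hX'0 hX' hX64' hl0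
    (by linarith) hm₂0 (by linarith) hm₂r hδ (by linarith) hκ hκl himb hψ.diff hψ.inj i2'
    (hd.trans q4) fd hfar hP.good.nocut hφU hP.subD hφc hbox₂
  refine ⟨φ, Gd, hφU, hφi, ⟨d1, d2, d3, d4, d5, d6⟩, ?_⟩
  intro ζ hζ0 hζX hζw
  have hζn : ‖ζ‖ ≤ 2 * X' := by
    have h1 : ‖(X' : ℂ)‖ = X' := by rw [Complex.norm_real, Real.norm_of_nonneg hX'0.le]
    calc ‖ζ‖ = ‖(ζ - X') + X'‖ := by congr 1; ring
      _ ≤ _ := norm_add_le _ _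
      _ ≤ 2 * X' := by rw [h1]; linarith
  refine im_low (m := m₂ / 8) (M := 2 * X') (by positivity) hU hq hζ0 hζn hζw ?_
  intro y hy
  have hyQ : y ∈ Q := by
    rw [mem_ball, dist_eq_norm] at hy
    have e : (d.re : ℂ) + ((m₂ / 4 : ℝ) : ℂ) * Complex.I + (d.im : ℂ) * Complex.I - d =
        ((m₂ / 4 : ℝ) : ℂ) * Complex.I := by
      apply Complex.ext <;> simp
    refine hbox₂ y ?_ ?_
    · calc ‖y - d‖ = ‖(y - ((d.re : ℂ) + ((m₂ / 4 : ℝ) : ℂ) * Complex.I + (d.im : ℂ) * Complex.I)) +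
            ((d.re : ℂ) + ((m₂ / 4 : ℝ) : ℂ) * Complex.I + (d.im : ℂ) * Complex.I - d)‖ := by
            congr 1; ring
        _ ≤ _ := norm_add_le _ _
        _ < m₂ := by rw [e, norm_mulI (by positivity)]; linarith
    · have h1 := (Complex.abs_im_le_norm
        (y - ((d.re : ℂ) + ((m₂ / 4 : ℝ) : ℂ) * Complex.I + (d.im : ℂ) * Complex.I))).trans_lt hy
      have h2 : ((d.re : ℂ) + ((m₂ / 4 : ℝ) : ℂ) * Complex.I + (d.im : ℂ) * Complex.I).im =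
          m₂ / 4 + d.im := by
        rw [Complex.add_im, Complex.add_im, Complex.ofReal_im, im_mulI, im_mulI, zero_add]
      rw [Complex.sub_im, h2, abs_lt] at h1
      linarith [h1.1]
  have h1 := hP.subD hyQ
  rw [← hU.img]
  exact image_mono (fun z hz => Vale.Agent.P164.im_pos_of_dom H.nn hz) h1

/-- A uniform modulus of continuity. -/
theorem modH {X κ : ℝ} (hX0 : 0 < X) (hκ : 0 < κ) :
    ∃ η > 0, η ≤ X / 4 ∧ η ≤ 1 ∧ ∀ d₀ d₁ τ D₁ τ' : ℝ, X / 2 ≤ D₁ → D₁ ≤ 2 * X →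
      0 ≤ τ' → τ' ≤ 1 → 0 ≤ τ → |d₀ - X| ≤ η → |d₁ - D₁| ≤ η → |τ - τ'| ≤ η →
      |τ * (d₀ / d₁) - τ' * (X / D₁)| ≤ κ := by
  set f : ℝ × ℝ × ℝ → ℝ := fun x => x.2.2 * (x.1 / x.2.1) with hf
  set K : Set (ℝ × ℝ × ℝ) := Icc (X / 2) (2 * X) ×ˢ Icc (X / 4) (3 * X) ×ˢ Icc 0 2 with hK
  have hKc : IsCompact K := isCompact_Icc.prod (isCompact_Icc.prod isCompact_Icc)
  have hfc : ContinuousOn f K := by
    rintro ⟨b, d, e⟩ ⟨⟨hb, hb'⟩, ⟨hd, hd'⟩, he⟩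
    simp only at hb hb' hd hd'
    have h3 : d ≠ 0 := by linarith
    refine ContinuousAt.continuousWithinAt ?_
    simp only [hf]
    refine ContinuousAt.mul (by fun_prop) (ContinuousAt.div (by fun_prop) (by fun_prop) ?_)
    exact h3
  obtain ⟨η, hη, hη'⟩ := Metric.uniformContinuousOn_iff.1
    (hKc.uniformContinuousOn_of_continuous hfc) κ hκ
  refine ⟨min (η / 2) (min (X / 4) 1), by positivity, (min_le_right _ _).trans (min_le_left _ _),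
    (min_le_right _ _).trans (min_le_right _ _), ?_⟩
  intro d₀ d₁ τ D₁ τ' k3 k4 k5 k6 k7 e2 e4 e5
  set η₁ : ℝ := min (η / 2) (min (X / 4) 1) with hη₁
  have l1 : η₁ ≤ η / 2 := min_le_left _ _
  have l2 : η₁ ≤ X / 4 := (min_le_right _ _).trans (min_le_left _ _)
  have l3 : η₁ ≤ 1 := (min_le_right _ _).trans (min_le_right _ _)
  have a2 := abs_le.1 e2
  have a4 := abs_le.1 e4
  have a5 := abs_le.1 e5
  have m1 : ((d₀, d₁, τ) : ℝ × ℝ × ℝ) ∈ K :=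
    ⟨⟨by linarith, by linarith⟩, ⟨by linarith, by linarith⟩, k7, by linarith⟩
  have m2 : ((X, D₁, τ') : ℝ × ℝ × ℝ) ∈ K :=
    ⟨⟨by linarith, by linarith⟩, ⟨by linarith, by linarith⟩, k5, by linarith⟩
  have hd : dist ((d₀, d₁, τ) : ℝ × ℝ × ℝ) (X, D₁, τ') < η := by
    refine lt_of_le_of_lt ?_ (by linarith : η / 2 < η)
    simp only [Prod.dist_eq, Real.dist_eq, max_le_iff]
    exact ⟨e2.trans l1, e4.trans l1, e5.trans l1⟩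
  have h := hη' _ m1 _ m2 hd
  simp only [hf, Real.dist_eq] at h
  exact h.le

/-- Powers, uniformly. -/
theorem modPH {h ε : ℝ} (h0 : 0 ≤ h) (hε : 0 < ε) :
    ∃ κ > 0, ∀ u O : ℝ, 0 ≤ u → 0 ≤ O → O ≤ 2 → |u - O| ≤ κ → |u ^ h - O ^ h| ≤ ε := by
  set f : ℝ → ℝ := fun x => x ^ h with hf
  have hfc : ContinuousOn f (Icc 0 3) := fun x _ =>
    (Real.continuousAt_rpow_const x h (Or.inr h0)).continuousWithinAt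
  obtain ⟨η, hη, hη'⟩ := Metric.uniformContinuousOn_iff.1
    (isCompact_Icc.uniformContinuousOn_of_continuous hfc) ε hε
  refine ⟨min (η / 2) 1, by positivity, fun u O k0 k1 k2 e1 => ?_⟩
  have l1 : min (η / 2) 1 ≤ η / 2 := min_le_left _ _
  have l2 : min (η / 2) 1 ≤ 1 := min_le_right _ _
  have a1 := abs_le.1 e1
  have h1 := hη' u ⟨k0, by linarith⟩ O ⟨k1, by linarith⟩ (by
    rw [Real.dist_eq]
    linarith)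
  rw [Real.dist_eq] at h1
  exact h1.le

/-- **Comparison of two polygons.** -/
theorem glueH (S : SeqF l ψn Dn an bn) {X Y Rb m κ : ℝ} (hT : 0 ≤ T) (hR : 0 ≤ R)
    (hX0 : 0 < X) (hX : 8 * R ≤ X) (hX64 : 64 * T ≤ X ^ 2) (hRb : 0 ≤ Rb)
    (hm : 0 < m) (hY0 : 0 < Y) (hY : 8 * R ≤ Y) (hY2 : 64 * T ≤ Y ^ 2) (hκ : 0 < κ) :
    ∃ h > 0, ∀ᶠ n in l, ∀ (W₀ W : ℝ → ℝ) (t : ℝ), Drv T R W₀ 0 → W₀ 0 = 0 →
      Drv T R W t → ∀ (Q₀ P₀ Q₁ P₁ : Set ℂ) (a₀ p₀ c₀ a₁ p₁ c₁ d : ℂ),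
      PC h (ψn n) W₀ 0 Y Rb Q₀ P₀ a₀ → PC h (ψn n) W t Y Rb Q₁ P₁ a₁ →
      FlatAt P₀ d m → FlatAt P₀ p₀ m → FlatAt P₁ d m → FlatAt P₁ p₁ m →
      ‖d - ψn n X‖ ≤ h → ‖p₀ - bn n‖ ≤ h → ‖p₁ - bn n‖ ≤ h →
      ∀ (ν : ℂ) (u₀ v₀ u₁ v₁ : ℝ), ν ≠ 0 → QPosL ν P₀ a₀ p₀ c₀ d u₀ v₀ →
        QPosL ν P₁ a₁ p₁ c₁ d u₁ v₁ →
        0 < (v₁ * (1 - u₁)) / (v₀ * (1 - u₀)) ∧
        |(v₁ * (1 - u₁)) / (v₀ * (1 - u₀)) - dT W t X * (X / xT W t X)| ≤ κ := by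
  obtain ⟨η, hη, hηX, hη1, hmod⟩ := modH hX0 hκ
  obtain ⟨lam, hl0, hlX, hlη, hlη'⟩ : ∃ lam > 0, lam ≤ X / 8192 ∧ 527 * lam ≤ η / 4 ∧
      140000 / X * lam ≤ η / 4 := by
    refine ⟨min (X / 8192) (min (η / 2108) (η * X / 560000)), by positivity, min_le_left _ _, ?_,
      ?_⟩
    · have : min (X / 8192) (min (η / 2108) (η * X / 560000)) ≤ η / 2108 :=
        (min_le_right _ _).trans (min_le_left _ _)
      linarith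
    · have : min (X / 8192) (min (η / 2108) (η * X / 560000)) ≤ η * X / 560000 :=
        (min_le_right _ _).trans (min_le_right _ _)
      calc 140000 / X * min (X / 8192) (min (η / 2108) (η * X / 560000))
          ≤ 140000 / X * (η * X / 560000) := by gcongr
        _ = η / 4 := by field_simp; ring
  obtain ⟨m₂, hm₂, σ, hσ, hpoly⟩ := polyH (T := T) (R := R) S hT hR hX0 hX hX64 hl0 hlX hm hRb
    hY0 hY hY2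
  obtain ⟨κ', hκ'0, hκ'l, hκ'σ, hκ'η⟩ : ∃ κ' > 0, κ' ≤ lam ∧ κ' ≤ σ / 2 ∧
      80 * (527 * κ') / (σ / 2) ≤ η / 4 := by
    refine ⟨min lam (min (σ / 2) (η * σ / 337280)), by positivity, min_le_left _ _,
      (min_le_right _ _).trans (min_le_left _ _), ?_⟩
    have : min lam (min (σ / 2) (η * σ / 337280)) ≤ η * σ / 337280 :=
      (min_le_right _ _).trans (min_le_right _ _)
    rw [div_le_iff₀ (by positivity)]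
    linarith
  obtain ⟨δ, hδ0, hδm, hδη⟩ : ∃ δ > 0, δ ≤ m₂ / 64 ∧
      80 * (46 * (32 * X / m₂ * δ)) / (σ / 2) ≤ η / 4 := by
    refine ⟨min (m₂ / 64) (η * m₂ * σ / (942080 * X)), by positivity, min_le_left _ _, ?_⟩
    have : min (m₂ / 64) (η * m₂ * σ / (942080 * X)) ≤ η * m₂ * σ / (942080 * X) :=
      min_le_right _ _
    rw [div_le_iff₀ (by positivity)]
    calc 80 * (46 * (32 * X / m₂ * min (m₂ / 64) (η * m₂ * σ / (942080 * X))))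
        ≤ 80 * (46 * (32 * X / m₂ * (η * m₂ * σ / (942080 * X)))) := by gcongr
      _ = η / 4 * (σ / 2) := by field_simp; norm_num
  obtain ⟨h, hh, hev⟩ := hpoly δ hδ0 hδm κ' hκ'0 hκ'l
  refine ⟨h, hh, ?_⟩
  filter_upwards [hev] with n hn W₀ W t H₀ h0 H Q₀ P₀ Q₁ P₁ a₀ p₀ c₀ a₁ p₁ c₁ d hP₀ hP₁ f2 f3 f5 f6
    hd hp₀ hp₁ ν u₀ v₀ u₁ v₁ hν hQ₀ hQ₁
  obtain ⟨hinj, hdata⟩ := hn
  obtain ⟨φ₀, Gd₀, hφ₀, hφ₀i, Nd₀, hlow⟩ := hdata W₀ 0 H₀ Q₀ P₀ a₀ p₀ d hP₀ f2 f3 hd hp₀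
  obtain ⟨φ₁, Gd₁, hφ₁, hφ₁i, Nd₁, -⟩ := hdata W t H Q₁ P₁ a₁ p₁ d hP₁ f5 f6 hd hp₁
  obtain ⟨β₀, D₀, k2, k3, k5, k7, k8⟩ := dataH hm₂ hP₀.good.nocut hφ₀ hφ₀i Nd₀ hQ₀
  obtain ⟨β₁, D₁, l2, l3, l5, l7, l8⟩ := dataH hm₂ hP₁.good.nocut hφ₁ hφ₁i Nd₁ hQ₁
  obtain ⟨g₀, g₁, hg₀, e₀, e₁, hr⟩ := ratR H₀ h0 H hT hR hX0 hX hX64 hl0 hlX hm₂ hδ0 hδm
    hκ'0 hκ'l hσ hκ'σ hinj Nd₀ Nd₁ hlow
  have z2 := xT_zero H₀ h0 hR hX0 hX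
  rw [z2] at k7
  obtain ⟨-, g4, g5⟩ := xT_bd H hX0 hX hX64
  have hDD : D₁ / D₀ = g₁ / g₀ := by
    rw [e₀] at k8
    rw [e₁] at l8
    have hD0 : (D₀ : ℂ) ≠ 0 := by exact_mod_cast k3.ne'
    have hg0 : (g₀ : ℂ) ≠ 0 := by exact_mod_cast hg₀.ne'
    have h1 : ((D₁ / D₀ : ℝ) : ℂ) = ((g₁ / g₀ : ℝ) : ℂ) := by
      push_cast
      rw [k8, l8]
      field_simp
    exact_mod_cast h1
  have hτ' : |D₁ / D₀ - dT W t X| ≤ η := by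
    rw [hDD]
    refine hr.trans ?_
    rw [mul_add, add_div]
    linarith
  have hfin := hmod β₀ β₁ (D₁ / D₀) (xT W t X) (dT W t X) g4 g5
    (norm_nonneg _) (dT_le H hX0 hX hX64) (by positivity) (by linarith) (by linarith) hτ'
  have e2 : D₁ / β₁ / (D₀ / β₀) = D₁ / D₀ * (β₀ / β₁) := by
    field_simp
  rw [k5, l5, e2]
  exact ⟨by positivity, hfin⟩

/-- **The power of the ratio for two flat polygons is close to `obsH`.** -/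
theorem sandH (S : SeqF l ψn Dn an bn) {X h ε : ℝ} (h0 : 0 < h) (hT : 0 ≤ T) (hR : 0 ≤ R)
    (hX0 : 0 < X) (hX : 8 * R ≤ X) (hX64 : 64 * T ≤ X ^ 2) (hε : 0 < ε) :
    ∀ Y Rb m : ℝ, 0 ≤ Rb → 0 < m → 0 < Y → 8 * R ≤ Y → 64 * T ≤ Y ^ 2 →
    ∃ h₀ > 0, ∀ᶠ n in l, ∀ (W₀ W : ℝ → ℝ) (t : ℝ), Drv T R W₀ 0 → W₀ 0 = 0 →
      Drv T R W t → ∀ (Q₀ P₀ Q₁ P₁ : Set ℂ) (a₀ p₀ c₀ a₁ p₁ c₁ d : ℂ),
      PC h₀ (ψn n) W₀ 0 Y Rb Q₀ P₀ a₀ → PC h₀ (ψn n) W t Y Rb Q₁ P₁ a₁ →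
      FlatAt P₀ d m → FlatAt P₀ p₀ m → FlatAt P₁ d m → FlatAt P₁ p₁ m →
      ‖d - ψn n X‖ ≤ h₀ → ‖p₀ - bn n‖ ≤ h₀ → ‖p₁ - bn n‖ ≤ h₀ →
      ∀ (ν : ℂ) (u₀ v₀ u₁ v₁ : ℝ), ν ≠ 0 → QPosL ν P₀ a₀ p₀ c₀ d u₀ v₀ →
        QPosL ν P₁ a₁ p₁ c₁ d u₁ v₁ →
        |((v₁ * (1 - u₁)) / (v₀ * (1 - u₀))) ^ h - obsH h W X t| ≤ ε := by
  obtain ⟨κ, hκ, hmod⟩ := modPH h0.le hε
  intro Y Rb m hRb hm hY0 hY hY2
  obtain ⟨h₀, hh₀, hgl⟩ := glueH S hT hR hX0 hX hX64 hRb hm hY0 hY hY2 hκ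
  refine ⟨h₀, hh₀, ?_⟩
  filter_upwards [hgl] with n hgl W₀ W t H₀ h0' H Q₀ P₀ Q₁ P₁ a₀ p₀ c₀ a₁ p₁ c₁ d hP₀ hP₁ f2 f3 f5
    f6 hd hp₀ hp₁ ν u₀ v₀ u₁ v₁ hν hQ₀ hQ₁
  obtain ⟨r1, r2⟩ := hgl W₀ W t H₀ h0' H Q₀ P₀ Q₁ P₁ a₀ p₀ c₀ a₁ p₁ c₁ d hP₀ hP₁ f2 f3 f5 f6 hd
    hp₀ hp₁ ν u₀ v₀ u₁ v₁ hν hQ₀ hQ₁
  obtain ⟨-, g2, g3⟩ := xT_bd H hX0 hX hX64
  have hxT : 0 < xT W t X := by linarith
  obtain ⟨y, hy⟩ := exists_rsol H.nn H.cont.continuousOn H.bdd hX0.ne'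
    (by rw [abs_of_pos hX0]; linarith) (by linarith [H.le])
  have hx : xT W t X = y t - W t := by
    rw [xT, flow_rsol H.nn H.cont.continuousOn hy, ← Complex.ofReal_sub, Complex.ofReal_re]
  have hO : obsH h W X t = (dT W t X * (X / xT W t X)) ^ h := by
    rw [obsH_eq H.nn H.cont.continuousOn hy (by rw [← hx]; positivity), dT_eq H hy, hx]
    congr 1
    ring
  rw [hO]
  have hd0 : 0 ≤ dT W t X := norm_nonneg _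
  have hd1 := dT_le H hX0 hX hX64
  have hq : X / xT W t X ≤ 2 := by
    rw [div_le_iff₀ hxT]
    linarith
  have hq0 : 0 < X / xT W t X := by positivity
  refine hmod _ _ r1.le (by positivity) ?_ r2
  calc dT W t X * (X / xT W t X) ≤ 1 * (X / xT W t X) := by gcongr
    _ ≤ 2 := by linarith

/-- `sandH` uniformly in the translation `β`. -/
theorem sandHT (S : SeqF l ψn Dn an bn) {s : ℂ} (hs : s ≠ 0) {X h ε : ℝ} (h0 : 0 < h)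
    (hT : 0 ≤ T) (hR : 0 ≤ R) (hX0 : 0 < X) (hX : 8 * R ≤ X) (hX64 : 64 * T ≤ X ^ 2)
    (hε : 0 < ε) :
    ∀ Y Rb m : ℝ, 0 ≤ Rb → 0 < m → 0 < Y → 8 * R ≤ Y → 64 * T ≤ Y ^ 2 →
    ∃ h₀ > 0, ∀ᶠ n in l, ∀ (β : ℂ) (W₀ W : ℝ → ℝ) (t : ℝ), Drv T R W₀ 0 → W₀ 0 = 0 →
      Drv T R W t → ∀ (Q₀ P₀ Q₁ P₁ : Set ℂ) (a₀ p₀ c₀ a₁ p₁ c₁ d : ℂ),
      PC h₀ (fun z => s * ψn n z + β) W₀ 0 Y Rb Q₀ P₀ a₀ →
      PC h₀ (fun z => s * ψn n z + β) W t Y Rb Q₁ P₁ a₁ →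
      FlatAt P₀ d m → FlatAt P₀ p₀ m → FlatAt P₁ d m → FlatAt P₁ p₁ m →
      ‖d - (s * ψn n X + β)‖ ≤ h₀ → ‖p₀ - (s * bn n + β)‖ ≤ h₀ →
      ‖p₁ - (s * bn n + β)‖ ≤ h₀ →
      ∀ (ν : ℂ) (u₀ v₀ u₁ v₁ : ℝ), ν ≠ 0 → QPosL ν P₀ a₀ p₀ c₀ d u₀ v₀ →
        QPosL ν P₁ a₁ p₁ c₁ d u₁ v₁ →
        |((v₁ * (1 - u₁)) / (v₀ * (1 - u₀))) ^ h - obsH h W X t| ≤ ε := by
  intro Y Rb m hRb hm hY0 hY hY2
  obtain ⟨h₀, hh₀, hev⟩ := sandH (h := h) (S.aff hs) h0 hT hR hX0 hX hX64 hε Y Rb m hRb hm hY0 hY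
    hY2
  refine ⟨h₀, hh₀, ?_⟩
  rw [eventually_prod_principal_iff] at hev
  exact hev.mono fun n hn β => hn β (mem_univ β)

/-- **`sandHT` with the Euclidean conditions.** -/
theorem sandHE (S : SeqF l ψn Dn an bn) {s : ℂ} (hs : s ≠ 0) {X h ε : ℝ} (h0 : 0 < h)
    (hT : 0 ≤ T) (hR : 0 ≤ R) (hX0 : 0 < X) (hX : 8 * R ≤ X) (hX64 : 64 * T ≤ X ^ 2)
    (hε : 0 < ε) :
    ∀ Y Rb m : ℝ, 0 ≤ Rb → 0 < m → 0 < Y → 8 * R ≤ Y → 64 * T ≤ Y ^ 2 →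
    ∃ h₀ > 0, ∀ᶠ n in l, ∀ (β : ℂ) (W₀ W : ℝ → ℝ) (t : ℝ), Drv T R W₀ 0 → W₀ 0 = 0 →
      Drv T R W t → ∀ (Q₀ P₀ Q₁ P₁ : Set ℂ) (a₀ p₀ c₀ a₁ p₁ c₁ d : ℂ),
      PF h₀ (fun z => s * ψn n z + β) W₀ 0 Y Rb Q₀ P₀ a₀ →
      PF h₀ (fun z => s * ψn n z + β) W t Y Rb Q₁ P₁ a₁ →
      FlatAt P₀ d m → FlatAt P₀ p₀ m → FlatAt P₁ d m → FlatAt P₁ p₁ m →
      ‖d - (s * ψn n X + β)‖ ≤ h₀ → ‖p₀ - (s * bn n + β)‖ ≤ h₀ →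
      ‖p₁ - (s * bn n + β)‖ ≤ h₀ →
      ∀ (ν : ℂ) (u₀ v₀ u₁ v₁ : ℝ), ν ≠ 0 → QPosL ν P₀ a₀ p₀ c₀ d u₀ v₀ →
        QPosL ν P₁ a₁ p₁ c₁ d u₁ v₁ →
        |((v₁ * (1 - u₁)) / (v₀ * (1 - u₀))) ^ h - obsH h W X t| ≤ ε := by
  intro Y Rb m hRb hm hY0 hY hY2
  obtain ⟨h₀, hh₀, hev⟩ := sandHT (h := h) S hs h0 hT hR hX0 hX hX64 hε Y Rb m hRb hm hY0 hY hY2
  obtain ⟨h₁, hh₁, hev'⟩ := pcT (Rb := Rb) S hs hT hR hY0 hY hY2 hh₀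
  refine ⟨min h₀ h₁, lt_min hh₀ hh₁, ?_⟩
  filter_upwards [hev, hev'] with n hn hn' β W₀ W t H₀ hW H Q₀ P₀ Q₁ P₁ a₀ p₀ c₀ a₁ p₁ c₁ d hp hq
    f2 f3 f5 f6 g2 g3 g4
  exact hn β W₀ W t H₀ hW H Q₀ P₀ Q₁ P₁ a₀ p₀ c₀ a₁ p₁ c₁ d
    (hn' β W₀ 0 H₀ Q₀ P₀ a₀ (hp.mono (min_le_right _ _)))
    (hn' β W t H Q₁ P₁ a₁ (hq.mono (min_le_right _ _))) f2 f3 f5 f6
    (g2.trans (min_le_left _ _)) (g3.trans (min_le_left _ _)) (g4.trans (min_le_left _ _))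

end Vale.Agent.P167.H712
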