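import Vale.Agent.P167.H364.LitT
import Vale.Agent.P167.H446.G.Cl
import Vale.Agent.P167.H712.ClA

/-!
# P167, `0 < q < 4`, [GEO]: closeness of the conformal quantity of the one-arm observable (2)

ROW GEO:CL, block `B_clT`.
-/

set_option autoImplicit false

open Filter Topology Set Metric

namespace Vale.Agent.P167.H712

open Vale.Agent.P153.R2
open Vale.Agent.P167.QT
open Vale.Agent.P167.SLE (bq)
open Vale.Agent.P167.E6 (pt)
open Vale.Agent.P167.H411 (exn Set6 good_ev)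
open Vale.Agent.P167.H756 (seqM_set6 drv wf_of PF)
open Vale.Agent.P167.H446.G
open Vale.Agent.P167.H364 (B_clT ClQT)
open Vale.Agent.P167.H375 (hT)

theorem hT_pos {μ : ℝ} (h1 : μ < Real.pi / 2) : 0 < hT μ := by
  have hp := Real.pi_pos
  unfold hT
  rw [sub_pos, div_lt_one hp]
  linarith

/-- **[CL]** -/
theorem b_clT {μ : ℝ} (h0 : 0 < μ) (h1 : μ < Real.pi / 2) : B_clT μ := by
  intro Φ ψ δ N k p S ψn H hK T R hT hR
  obtain ⟨ρ, hρ, hF⟩ := halfN H.appr hK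
  obtain ⟨X₁, hX₁, hl1, -, -, -⟩ := line_all H hρ hF
  refine ⟨max X₁ (8 * (R + 1) + 64 * (T + 1)), fun X X' hX hXX ε hε Y hY0 hY1 hY2 m B Rb hm hRb =>
    ?_⟩
  have hX2 : X₁ ≤ X := (le_max_left _ _).trans hX
  have hX3 : 8 * (R + 1) + 64 * (T + 1) ≤ X := (le_max_right _ _).trans hX
  have hX4 : 64 * (T + 1) ≤ X' ^ 2 := by
    have h1 : 64 * (T + 1) ≤ X' := by linarith
    nlinarith
  obtain ⟨h₀, hh₀, hev⟩ := sandHE (h := Vale.Agent.P167.H375.hT μ) (seqM_set6 H) rt_ne (hT_pos h1)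
    (T := T + 1) (R := R + 1) (X := X') (by linarith) (by linarith) (by linarith) (by linarith)
    hX4 hε Y Rb (m / 2) hRb (by positivity) hY0 hY1 hY2
  set C : Cst := ⟨T, R, X, X', dist (ψ X) (bq Φ), dist (ψ X') (bq Φ), m, B, Y, Rb⟩ with hC
  refine ⟨h₀, hh₀, min (h₀ / 2) (m / 8), by positivity, fun s hs hss => ?_⟩
  have hs1 : s ≤ h₀ := by linarith [hss.trans (min_le_left _ _)]
  have hs2 : 8 * s ≤ C.m := by
    have := hss.trans (min_le_right _ _)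
    show 8 * s ≤ m
    linarith
  have hXX' : X₁ ≤ X' := by linarith
  filter_upwards [hev, mark_d (C := C) H (hl1 X' hXX').1 (hl1 X' hXX').2 rfl hs,
    mark_b (C := C) H hh₀,
    flatAt_marks (C := C) H hs hs2, rad_ge H hs hs2, drv H hT hR.le (show (0 : ℝ) < 1 by norm_num),
    good_ev H.appr] with n hn hd hb hfl hrad hdrv hg
  intro A j A' P P₀ hB hB' hP hP₀ hcl hcl₀ u v u₀ w₀ hu hu₀
  obtain ⟨⟨Q, hQ⟩, hf⟩ := hcl
  obtain ⟨⟨Q₀, hQ₀⟩, hf₀⟩ := hcl₀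
  have hwf : (exn δ N k p S ψn n).WF := H411.DC.expl_wf (wf_of H hg) (H.uni n hg)
  have hc0 : (exn δ N k p S ψn n).c A' 0 = 0 := hwf.c0 A' hB'.1
  obtain ⟨hD', hW0⟩ := hdrv A' hB'.1 0 hB'.2.1 hB'.2.2
  obtain ⟨hD, -⟩ := hdrv A hB.1 j hB.2.1 hB.2.2
  rw [hc0] at hD' hQ₀
  have hl : 0 < un s (δ n) := hrad.2
  have hl' : (un s (δ n) : ℂ) ≠ 0 := by exact_mod_cast hl.ne'
  have hm2 : C.m / 2 ≤ C.m := by
    show m / 2 ≤ m
    linarith
  exact hn (-((Vale.Agent.P167.H446.G.dl (δ n) : ℂ) * pt (vd (p n) (k n) C.Ld s (δ n))))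
    ((exn δ N k p S ψn n).W A') ((exn δ N k p S ψn n).W A) ((exn δ N k p S ψn n).c A j)
    hD' hW0 hD Q₀ (emb (un s (δ n)) P₀) Q (emb (un s (δ n)) P) (ea (un s (δ n)) P₀)
    (eb (un s (δ n)) P₀) ((un s (δ n) : ℂ) * pt (P₀.q P₀.j)) (ea (un s (δ n)) P)
    (eb (un s (δ n)) P) ((un s (δ n) : ℂ) * pt (P.q P.j)) 0 hQ₀ hQ (hfl P₀ hP₀).2
    (FlatAt.mono hf₀ hm2) (hfl P hP).2 (FlatAt.mono hf hm2)
    (hd.le.trans hs1) (hb s P₀ hP₀).le (hb s P hP).le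
    (un s (δ n)) u₀ w₀ u v hl' (posL hl hu₀) (posL hl hu)

end Vale.Agent.P167.H712
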