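import Vale.Agent.P167.H712.Cmb
import Vale.Agent.P167.N.BT.TDefs

/-!
# P167, `0 < q < 1`, [GEO]: `GeoT'` from `GeoZ`
-/

set_option autoImplicit false

namespace Vale.Agent.P167.H712

open Filter Topology Set
open Vale.Agent.P167.H364 (AdmZ fzZ PTZ GeoZAt GeoZ OkT B_allZ B_badT B_cmpZ B_clT)
open Vale.Agent.P167.N.BT (AdmT fzT PTz GeoTAt' GeoT')
open Vale.Agent.P167.H375 (Sh)

theorem admZ_of {v₀ : ℤ × ℤ} {r R : ℤ} {Z : Finset (ℤ × ℤ)} {ζ : Cfg} (h : AdmT v₀ r R Z ζ) :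
    AdmZ v₀ r R Z ζ := ⟨h.low, h.sub, h.conn⟩

theorem fzZ_eq (D Z : Finset (ℤ × ℤ)) (ζ : Cfg) (W : Set (ℤ × ℤ)) : fzZ D Z ζ W = fzT D Z ζ W := rfl

theorem pTZ_eq (μ : ℝ) (N : ℕ) (v₀ : ℤ × ℤ) (P : Sh) (Z : Finset (ℤ × ℤ)) (ζ : Cfg) :
    PTZ μ N v₀ P Z ζ = PTz μ N v₀ P Z ζ := rfl

/-- **The adapter.** -/
theorem geoT'_of {μ : ℝ} (hμ : 0 < Real.cos μ) {ok : Sh → Prop} {K : QE.Cls} (h : GeoZ μ ok K) :
    GeoT' μ ok K := by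
  intro Φ ψ δ N k p S ψn H hK T R hT hR
  obtain ⟨b₁, h1⟩ := h Φ ψ δ N k p S ψn H hK T R hT hR
  refine ⟨b₁, fun b hb ε hε => ?_⟩
  obtain ⟨M, hM, h2⟩ := h1 b hb ε hε
  refine ⟨M, hM, fun ε' hε' => ?_⟩
  obtain ⟨Shs, P₀, r₁, N', g1, g2, g3, g4, g5, g6, g7, h3⟩ := h2 ε' hε'
  refine ⟨Shs, P₀, r₁, N', g1, g2, g3, g4, g5, g6, g7, fun r₀ hr₀ => ?_⟩
  filter_upwards [h3 r₀ hr₀, H411.good_ev H.appr] with n hn hng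
  obtain ⟨v₀, Dc, W, hv, hn⟩ := hn
  refine ⟨v₀, Dc, W, hv, fun κ hκ => ?_⟩
  obtain ⟨f1, f2⟩ := hn κ hκ
  have hwf : (H411.exn δ N k p S ψn n).WF := H411.DC.expl_wf (H756.wf_of H hng) (H.uni n hng)
  have hq2 : 0 < (2 * Real.cos μ) ^ 2 := by positivity
  refine ⟨fun A hA Z ζ hZ => f1 A hA Z ζ (admZ_of hZ), le_trans (QE.exW_mono hwf.fin
    (fun A _ => QE.wq_pos hq2 _ _ _ _ A) fun A _ => ?_) f2⟩
  refine indicator_le_indicator_of_subset (fun A' hA' => ?_) (fun _ => zero_le_one) A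
  simp only [Set.mem_ofPred_eq] at hA' ⊢
  rintro ⟨P, hP, P', hP', hs, hc⟩
  exact hA' ⟨P, hP, P', hP', fun Z ζ hZ => hs Z ζ (admZ_of hZ), hc⟩

/-- **[GEOT']** from the blocks. -/
theorem geoT'_of_blocks {μ : ℝ} (hμ : 0 < Real.cos μ) (hAll : B_allZ μ) (hBad : B_badT μ)
    (hCmp : B_cmpZ μ) (hShp : H446.G.B_shp) (hCl : B_clT μ) : GeoT' μ OkT (QE.Stair 3) :=
  geoT'_of hμ (geoZOf hμ hAll hBad hCmp hShp hCl)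

end Vale.Agent.P167.H712
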