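import Vale.Agent.P167.H712.CmbZ
import Vale.Agent.P167.H446.G.Asm

/-!
# P167, `0 < q < 4`, [GEO-ASM]: `GeoZ` from the five blocks

`geoZOf` : `B_allZ`, `B_badT`, `B_cmpZ`, `B_shp`, `B_clT` give `GeoZ μ OkT (Stair 3)`.
-/

set_option autoImplicit false

open Filter Topology Set Metric

namespace Vale.Agent.P167.H712

open Vale.Agent.P153.R2
open Vale.Agent.P167.QT
open Vale.Agent.P167.SLE (bq)
open Vale.Agent.P167.H411 (exn Set6)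
open Vale.Agent.P167.H718 (Dq)
open Vale.Agent.P167.H446.G
open Vale.Agent.P167.H364 (toSh OkT wT prT B_allZ B_badT B_cmpZ B_clT I_allZ I_badT I_cmpZ I_clT
  GeoZ GeoZOf ClQT)

/-- **[GEO:COMB]** `GeoZ` from the blocks. -/
theorem geoZOf {μ : ℝ} (hμ : 0 < Real.cos μ) : GeoZOf μ := by
  intro hAll hBad hCmp hShp hCl Φ ψ δ N k p S ψn H hK T R hT hR
  obtain ⟨ρ₁, hρ₁, hAll⟩ := hAll Φ ψ δ N k p S ψn H hK T R hT hR
  obtain ⟨ρ₂, hρ₂, hBad⟩ := hBad Φ ψ δ N k p S ψn H hK T R hT hR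
  obtain ⟨ρ₃, hρ₃, hCmp⟩ := hCmp Φ ψ δ N k p S ψn H hK T R hT hR
  obtain ⟨b₁, hShp⟩ := hShp Φ ψ δ N k p S ψn H hK T R hT hR
  obtain ⟨b₂, hCl⟩ := hCl Φ ψ δ N k p S ψn H hK T R hT hR
  obtain ⟨ρ₄, hρ₄, hF⟩ := halfN H.appr hK
  obtain ⟨X₁, hX₁, hl1, -, hmono, -⟩ := line_all H hρ₄ hF
  have hU' : DET.Uni ψ (bq Φ) := SLE.uni_of_uniformizer R1.i_uinj H.unif
  obtain ⟨ρ, hρ, r1, r2, r3⟩ : ∃ ρ : ℝ, 0 < ρ ∧ ρ ≤ ρ₁ ∧ ρ ≤ ρ₂ ∧ ρ ≤ ρ₃ :=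
    ⟨min ρ₁ (min ρ₂ ρ₃), by positivity, by simp, by simp, by simp⟩
  obtain ⟨M₀, hM₀⟩ := H756.mod_inf1 hU' (show 0 < ρ / 2 by positivity)
  -- the mark `c` : the image of `X`, the mark `d = t` : the image of `X' > X`
  set X : ℝ := max (max b₁ b₂) (max X₁ |M₀|) with hX
  have hX1 : b₁ ≤ X := (le_max_left _ _).trans (le_max_left _ _)
  have hX2 : b₂ ≤ X := (le_max_right _ _).trans (le_max_left _ _)
  have hX3 : X₁ ≤ X := (le_max_left _ _).trans (le_max_right _ _)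
  have hX4 : |M₀| ≤ X := (le_max_right _ _).trans (le_max_right _ _)
  have hX0 : 0 < X := hX₁.trans_le hX3
  refine ⟨X + 1, fun X' hX' ε hε => ?_⟩
  have hXX : X < X' := by linarith
  -- the distances
  obtain ⟨hi, hr⟩ := hl1 X hX3
  obtain ⟨hi', hr'⟩ := hl1 X' (by linarith)
  have hLL : dist (ψ X') (bq Φ) < dist (ψ X) (bq Φ) := by
    have h1 : (rt * ψ X).re < (rt * ψ X').re := hmono (show X ∈ Ici X₁ from hX3)
      (show X' ∈ Ici X₁ from by show X₁ ≤ X'; linarith) hXX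
    linarith
  have hLd : 0 < dist (ψ X') (bq Φ) := dist_pos.2 (hU'.ne _ (by
    show (0 : ℝ) ≤ ((X' : ℝ) : ℂ).im
    simp))
  have hLc : dist (ψ X) (bq Φ) < ρ / 2 := by
    rw [dist_eq_norm]
    refine hM₀ X (by simp) ?_
    rw [Complex.norm_real, Real.norm_of_nonneg hX0.le]
    linarith [le_abs_self M₀]
  -- the height of the base point
  obtain ⟨Y, hY0, hY1, hY2⟩ : ∃ Y : ℝ, 0 < Y ∧ 8 * (R + 1) ≤ Y ∧ 64 * (T + 1) ≤ Y ^ 2 := by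
    refine ⟨8 * (R + 1) + 64 * (T + 1), by positivity, by nlinarith, ?_⟩
    nlinarith
  obtain ⟨m₀, B, Rb, hm₀, hRb, hShp⟩ := hShp X X' hX1 hXX Y hY0 hY1 hY2
  obtain ⟨m, hm, m1, m2, m3, m4⟩ : ∃ m : ℝ, 0 < m ∧ m ≤ m₀ ∧ 8 * m ≤ dist (ψ X') (bq Φ) ∧
      dist (ψ X') (bq Φ) + 8 * m ≤ dist (ψ X) (bq Φ) ∧ 16 * m ≤ ρ := by
    refine ⟨min m₀ (min (dist (ψ X') (bq Φ) / 8) (min ((dist (ψ X) (bq Φ) -
      dist (ψ X') (bq Φ)) / 8) (ρ / 16))), ?_, min_le_left _ _, ?_, ?_, ?_⟩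
    · refine lt_min hm₀ (lt_min (by linarith) (lt_min (by linarith) (by linarith)))
    · have : min m₀ (min (dist (ψ X') (bq Φ) / 8) (min ((dist (ψ X) (bq Φ) -
        dist (ψ X') (bq Φ)) / 8) (ρ / 16))) ≤ dist (ψ X') (bq Φ) / 8 :=
        (min_le_right _ _).trans (min_le_left _ _)
      linarith
    · have : min m₀ (min (dist (ψ X') (bq Φ) / 8) (min ((dist (ψ X) (bq Φ) -
        dist (ψ X') (bq Φ)) / 8) (ρ / 16))) ≤ (dist (ψ X) (bq Φ) - dist (ψ X') (bq Φ)) / 8 :=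
        (min_le_right _ _).trans ((min_le_right _ _).trans (min_le_left _ _))
      linarith
    · have : min m₀ (min (dist (ψ X') (bq Φ) / 8) (min ((dist (ψ X) (bq Φ) -
        dist (ψ X') (bq Φ)) / 8) (ρ / 16))) ≤ ρ / 16 :=
        (min_le_right _ _).trans ((min_le_right _ _).trans (min_le_right _ _))
      linarith
  set C : Cst := ⟨T, R, X, X', dist (ψ X) (bq Φ), dist (ψ X') (bq Φ), m, B, Y, Rb⟩ with hC
  have hSm : ∀ ρ' : ℝ, ρ ≤ ρ' → C.Sm ρ' := by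
    intro ρ' hρ'
    refine ⟨hm, m2, m3, ?_⟩
    show dist (ψ X) (bq Φ) + 8 * m ≤ ρ'
    linarith
  have iAll : I_allZ μ C δ N k p S ψn := hAll C rfl rfl (hSm _ r1)
  have iBad : I_badT μ C δ N k p S ψn := hBad C rfl rfl (hSm _ r2)
  have iCmp : I_cmpZ μ C δ N k p S ψn := hCmp C rfl rfl (hSm _ r3)
  have iShp : I_shpC C δ N k p S ψn := hShp m hm m1
  have iCl : I_clT μ C δ N k p S ψn ε := hCl X X' hX2 hXX ε hε Y hY0 hY1 hY2 m B Rb hm hRb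
  -- the family
  have hfam : ∀ s : ℝ, {P | P ∈ Fam C.Ld C.Lc C.m C.B s ∧ P.Ok 2}.Finite := fun s =>
    (H918.finite_sh4 2 (Ku C.B s)).subset fun P hP => ⟨hP.2, hP.1.2.2.2⟩
  refine combZ (α := {r : ℝ // 0 < r}) (ok := OkT) H hμ
    (fun s => {P | P ∈ Fam C.Ld C.Lc C.m C.B s ∧ P.Ok 2})
    (fun s _ => hfam s) (fun s _ P hP => ⟨hP.2, H918.exq (by norm_num) hP.2⟩)
    (fun s n => vd (p n) (k n) C.Ld s (δ n)) (fun s n => even_vd _ _ _ _ _)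
    (fun s n => Dq (S n) (p n) (k n)) (fun s n => wT (p n) (k n))
    (fun s n => H446.G.Nn s (δ n))
    (fun s hs => tendsto_Nn (fun n => (H.appr.1 n).1) H.appr.2.1 hs)
    (fun s n => Nn_dvd _ _)
    (fun c r s n A j P => Inp C (p n) (k n) (S n) (δ n) r s A j c P)
    (fun c r s n A j η => prT μ C (p n) (k n) (S n) (δ n) r s A j c ≤ η)
    (fun t s n A j P => ClS C δ N k p S ψn t s n A j P) ?_ ?_ ?_ ?_ ?_
  · intro t ht
    obtain ⟨r, hr, s₀, hs₀, h⟩ := iShp t ht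
    refine ⟨⟨r, hr⟩, min s₀ (m / 2), by positivity, fun s hs hss => ?_⟩
    filter_upwards [h s hs (hss.trans (min_le_left _ _))] with n hn A j hB c
    obtain ⟨P, hP, h1, h2⟩ := hn A j hB c
    refine ⟨P, ⟨hP, ok_mono hP.1 (le_Ku hs ?_)⟩, h1, h2⟩
    have h3 : s ≤ m / 2 := hss.trans (min_le_right _ _)
    show ((2 : ℕ) : ℝ) * s ≤ m
    push_cast
    linarith
  · intro ε' hε'
    obtain ⟨η, hη, h⟩ := iCmp ε' hε'
    refine ⟨η, hη, fun r => ?_⟩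
    obtain ⟨s₀, hs₀, h⟩ := h r.1 r.2
    refine ⟨s₀, hs₀, fun s hs hss => ?_⟩
    filter_upwards [h s hs hss] with n hn A j hB c P hP
    exact hn A j hB c P hP.1
  · intro r η hη ε' hε'
    obtain ⟨s₀, hs₀, h⟩ := iBad r.1 η r.2 hη ε' hε'
    exact ⟨s₀, hs₀, h⟩
  · obtain ⟨h, hh, s₀, hs₀, hc⟩ := iCl
    refine ⟨h, hh, s₀, hs₀, fun s hs hss => ?_⟩
    filter_upwards [hc s hs hss] with n hn A j A' P P₀ hB hB' hP hP₀
    exact hn A j A' P P₀ hB hB' hP.1 hP₀.1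
  · obtain ⟨M, hM, s₀, hs₀, h⟩ := iAll
    exact ⟨M, hM, s₀, hs₀, h⟩

/-- `geoZOf`, in the form of the assembly. -/
theorem geoZ_of {μ : ℝ} (h0 : 0 < μ) (h1 : μ < Real.pi / 2) : GeoZOf μ :=
  geoZOf (Real.cos_pos_of_mem_Ioo ⟨by linarith, h1⟩)

end Vale.Agent.P167.H712
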