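import Vale.Agent.P167.H364.LitZ
import Vale.Agent.P167.H756.Exn

/-!
# P167, `0 < q < 4`, [GEO-ASM]: the combination of the scales, frozen pairs

`combZ`: the conclusion of `GeoZ` for one sequence from
* `hShp` (shapes), `hCmp` (comparison of the laws), `hBad` (weight of the bad histories), `hCl`
  (conformal closeness), `hAll` (all histories are comparable).
-/

set_option autoImplicit false

namespace Vale.Agent.P167.H712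

open Filter Topology Set
open Vale.Agent.P153.M1 (Expl)
open Vale.Agent.P167.QT
open Vale.Agent.P167.E6 (Medial)
open Vale.Agent.P167.H411 (exn Set6)
open Vale.Agent.P167.H375 (Sh)
open Vale.Agent.P167.H446.G (Hst Bef)
open Vale.Agent.P167.H364 (toSh AdmZ fzZ PTZ GeoZAt IneqZ ClQT)

/-- The conclusion for one sequence. -/
def GeoOneZ (μ : ℝ) (ok : Sh → Prop) (δ : ℕ → ℝ) (N k : ℕ → ℕ) (p : ∀ n, ZMod (N n) → ℤ × ℤ)
    (S : ℕ → Finset (ℤ × ℤ)) (ψn : ℕ → ℂ → ℂ) (T R b ε : ℝ) : Prop :=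
  ∃ M : ℝ, 0 < M ∧ ∀ ε' : ℝ, 0 < ε' →
    ∃ (Shs : Set Sh) (P₀ : ℕ → Sh) (r₁ : ℝ) (N' : ℕ → ℕ), Shs.Finite ∧ (∀ n, P₀ n ∈ Shs) ∧
      (∀ P ∈ Shs, ok P ∧ ∃ u v, P.Pos u v) ∧ 0 < r₁ ∧ r₁ ≤ 1 ∧ Tendsto N' atTop atTop ∧
      (∀ n, 4 ∣ N' n) ∧ ∀ r₀ : ℝ, 0 < r₀ → ∀ᶠ n in atTop,
        GeoZAt μ (exn δ N k p S ψn n) (QE.wq ((2 * Real.cos μ) ^ 2) (N n) (p n) (k n) (S n)) (p n)
          (k n) T R b M ε ε' r₀ r₁ Shs (P₀ n) (N' n)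

theorem admZ_one {v₀ : ℤ × ℤ} {r₀ : ℝ} {N : ℕ} {Z : Finset (ℤ × ℤ)} {ζ : Cfg}
    (h : AdmZ v₀ ⌊r₀ * N⌋ ⌊(1 / 2 : ℝ) * N⌋ Z ζ) (h4 : 4 ∣ N) (h1 : 1 ≤ r₀ * N) :
    AdmZ v₀ 1 (N / 2 : ℕ) Z ζ := by
  refine ⟨?_, ?_, h.conn⟩
  · refine subset_trans (fun v hv => ?_) h.low
    have h2 : (1 : ℤ) ≤ ⌊r₀ * N⌋ := Int.le_floor.2 (by push_cast; exact h1)
    unfold BR.hbox at hv ⊢
    rw [Finset.mem_product, Finset.mem_Icc, Finset.mem_Icc] at hv ⊢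
    omega
  · have h2 := h.sub
    have h3 : ⌊(1 / 2 : ℝ) * N⌋ = ((N / 2 : ℕ) : ℤ) := by
      obtain ⟨m, rfl⟩ := h4
      have e1 : 4 * m / 2 = 2 * m := by omega
      rw [e1, Int.floor_eq_iff]
      push_cast
      constructor <;> linarith
    rwa [h3] at h2

section

variable {μ : ℝ} {Φ : (ℝ × ℝ) ≃ₜ (ℝ × ℝ)} {ψ : ℂ → ℂ} {δ : ℕ → ℝ} {N k : ℕ → ℕ}
  {p : ∀ n, ZMod (N n) → ℤ × ℤ} {S : ℕ → Finset (ℤ × ℤ)} {ψn : ℕ → ℂ → ℂ} {T R b ε : ℝ}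

/-- **The combination of the scales.** -/
theorem combZ (H6 : Set6 Φ ψ δ N k p S ψn) (hq : 0 < Real.cos μ) {ok : Sh → Prop} {α : Type}
    (Fam : ℝ → Set Sh4) (hfin : ∀ s, 0 < s → (Fam s).Finite)
    (hok : ∀ s, 0 < s → ∀ P ∈ Fam s, ok (toSh P) ∧ ∃ u v, (toSh P).Pos u v)
    (v₀ : ℝ → ℕ → ℤ × ℤ) (hev : ∀ s n, Even ((v₀ s n).1 + (v₀ s n).2))
    (Dc : ℝ → ℕ → Finset (ℤ × ℤ)) (W : ℝ → ℕ → Set (ℤ × ℤ)) (N' : ℝ → ℕ → ℕ)
    (hN : ∀ s, 0 < s → Tendsto (N' s) atTop atTop) (h4 : ∀ s n, 4 ∣ N' s n)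
    (Inp : Bool → α → ℝ → ℕ → Hst → ℕ → Sh4 → Prop)
    (NS : Bool → α → ℝ → ℕ → Hst → ℕ → ℝ → Prop)
    (Cl : ℝ → ℝ → ℕ → Hst → ℕ → Sh4 → Prop)
    (hShp : ∀ t : ℝ, 0 < t → ∃ a : α, ∃ s₀ : ℝ, 0 < s₀ ∧ ∀ s : ℝ, 0 < s → s ≤ s₀ →
      ∀ᶠ n in atTop, ∀ (A : Hst) (j : ℕ), Bef (exn δ N k p S ψn n) T R A j →
        ∀ c : Bool, ∃ P ∈ Fam s, Inp c a s n A j P ∧ Cl t s n A j P)
    (hCmp : ∀ ε' : ℝ, 0 < ε' → ∃ η : ℝ, 0 < η ∧ ∀ a : α, ∃ s₀ : ℝ, 0 < s₀ ∧ ∀ s : ℝ, 0 < s →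
      s ≤ s₀ → ∀ᶠ n in atTop, ∀ (A : Hst) (j : ℕ), Bef (exn δ N k p S ψn n) T R A j →
        ∀ (c : Bool), ∀ P ∈ Fam s, Inp c a s n A j P → NS c a s n A j η →
          ∀ (Z : Finset (ℤ × ℤ)) (ζ : Cfg), AdmZ (v₀ s n) 1 (N' s n / 2 : ℕ) Z ζ →
            IneqZ μ (QE.cexW (exn δ N k p S ψn n)
              (QE.wq ((2 * Real.cos μ) ^ 2) (N n) (p n) (k n) (S n))
              (fun A' => fzZ (Dc s n) Z ζ (W s n) (H375.cf (p n) (k n) A')) A j) (v₀ s n) (N' s n)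
              c ε' P Z ζ)
    (hBad : ∀ (a : α) (η : ℝ), 0 < η → ∀ ε' : ℝ, 0 < ε' → ∃ s₀ : ℝ, 0 < s₀ ∧ ∀ s : ℝ, 0 < s →
      s ≤ s₀ → ∀ᶠ n in atTop, ∀ κ : Hst → ℕ, QE.BefIx (exn δ N k p S ψn n) T R κ →
        QE.ExW (exn δ N k p S ψn n).C
          (QE.wq ((2 * Real.cos μ) ^ 2) (N n) (p n) (k n) (S n))
          ({A | ¬ ∀ c, NS c a s n A (κ A) η}.indicator 1) ≤ ε')
    (hCl : ∃ t : ℝ, 0 < t ∧ ∃ s₀ : ℝ, 0 < s₀ ∧ ∀ s : ℝ, 0 < s → s ≤ s₀ → ∀ᶠ n in atTop,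
      ∀ (A : Hst) (j : ℕ) (A' : Hst) (P P₀ : Sh4), Bef (exn δ N k p S ψn n) T R A j →
        Bef (exn δ N k p S ψn n) T R A' 0 → P ∈ Fam s → P₀ ∈ Fam s → Cl t s n A j P →
          Cl t s n A' 0 P₀ → ClQT μ ε (exn δ N k p S ψn n) b A j P P₀)
    (hAll : ∃ M : ℝ, 0 < M ∧ ∃ s₀ : ℝ, 0 < s₀ ∧ ∀ s : ℝ, 0 < s → s ≤ s₀ → ∀ᶠ n in atTop,
      ∀ (A : Hst) (j : ℕ) (A' : Hst) (j' : ℕ), Bef (exn δ N k p S ψn n) T R A j →
        Bef (exn δ N k p S ψn n) T R A' j' → ∀ (Z : Finset (ℤ × ℤ)) (ζ : Cfg),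
          AdmZ (v₀ s n) 1 (N' s n / 2 : ℕ) Z ζ →
          QE.cexW (exn δ N k p S ψn n)
            (QE.wq ((2 * Real.cos μ) ^ 2) (N n) (p n) (k n) (S n))
            (fun A' => fzZ (Dc s n) Z ζ (W s n) (H375.cf (p n) (k n) A')) A j ≤
              M * QE.cexW (exn δ N k p S ψn n)
                (QE.wq ((2 * Real.cos μ) ^ 2) (N n) (p n) (k n) (S n))
                (fun A' => fzZ (Dc s n) Z ζ (W s n) (H375.cf (p n) (k n) A')) A' j') :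
    GeoOneZ μ ok δ N k p S ψn T R b ε := by
  classical
  have hq2 : 0 < (2 * Real.cos μ) ^ 2 := by positivity
  obtain ⟨t, ht, s₁, hs₁, hCl⟩ := hCl
  obtain ⟨M, hM, s₂, hs₂, hAll⟩ := hAll
  refine ⟨2 * M, by positivity, fun ε' hε' => ?_⟩
  obtain ⟨a, s₃, hs₃, hShp⟩ := hShp t ht
  have he1 : (0 : ℝ) < min ε' 1 := lt_min hε' one_pos
  obtain ⟨η, hη, hCmp⟩ := hCmp (min ε' 1) he1
  obtain ⟨s₄, hs₄, hCmp⟩ := hCmp a
  obtain ⟨s₅, hs₅, hBad⟩ := hBad a η hη (min ε' (1 / 2)) (lt_min hε' (by norm_num))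
  -- the scale
  obtain ⟨s, hs, h1, h2, h3, h4', h5⟩ : ∃ s : ℝ, 0 < s ∧ s ≤ s₁ ∧ s ≤ s₂ ∧ s ≤ s₃ ∧ s ≤ s₄ ∧
      s ≤ s₅ := by
    refine ⟨min s₁ (min s₂ (min s₃ (min s₄ s₅))), ?_, ?_, ?_, ?_, ?_, ?_⟩
    · exact lt_min hs₁ (lt_min hs₂ (lt_min hs₃ (lt_min hs₄ hs₅)))
    all_goals simp
  have hCl' := hCl s hs h1
  have hAll' := hAll s hs h2
  have hShp' := hShp s hs h3
  have hCmp' := hCmp s hs h4'
  have hBad' := hBad s hs h5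
  -- the weights
  have hw : ∀ (n : ℕ) (A : Hst), 0 <
      QE.wq ((2 * Real.cos μ) ^ 2) (N n) (p n) (k n) (S n) A := fun n A => QE.wq_pos hq2 _ _ _ _ A
  -- the exploration at time `0`
  have hzero : ∀ᶠ n in atTop, ∃ A : Hst, Bef (exn δ N k p S ψn n) T R A 0 ∧
      (∀ c, NS c a s n A 0 η) := by
    filter_upwards [hBad', H411.good_ev H6.appr] with n hn2 hn3
    have hwf : (exn δ N k p S ψn n).WF := H411.DC.expl_wf (H756.wf_of H6 hn3) (H6.uni n hn3)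
    have h0 : QE.BefIx (exn δ N k p S ψn n) T R (fun _ => 0) :=
      ⟨fun _ _ _ _ _ => rfl, fun h hh => ⟨hwf.pos h hh, fun j hj => absurd hj (Nat.not_lt_zero j)⟩⟩
    have h1 := hn2 _ h0
    by_contra hcon
    push Not at hcon
    have h2 : (1 : ℝ) ≤ QE.ExW (exn δ N k p S ψn n).C
          (QE.wq ((2 * Real.cos μ) ^ 2) (N n) (p n) (k n) (S n))
          ({A | ¬ ∀ c, NS c a s n A 0 η}.indicator 1) := by
      rw [← QE.exW_const hwf.fin hwf.ne (w := QE.wq ((2 * Real.cos μ) ^ 2) (N n) (p n) (k n) (S n))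
        (fun A _ => hw n A) 1]
      refine QE.exW_mono hwf.fin (fun A _ => hw n A) fun A hA => ?_
      have hB : Bef (exn δ N k p S ψn n) T R A 0 :=
        ⟨hA, hwf.pos A hA, fun j hj => absurd hj (by omega)⟩
      have hnot : A ∈ ({A | ¬ ∀ c, NS c a s n A 0 η} : Set Hst) := by
        intro hg
        obtain ⟨c, hc⟩ := hcon A hB
        exact hc (hg c)
      rw [indicator_of_mem hnot]
      rfl
    have := (h2.trans h1).trans (min_le_right _ _)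
    norm_num at this
  -- the property of the reference shape
  set Ref : ℕ → Sh4 → Prop := fun n P₀ => ∃ A : Hst, Bef (exn δ N k p S ψn n) T R A 0 ∧
    Cl t s n A 0 P₀ ∧ ∀ (Z : Finset (ℤ × ℤ)) (ζ : Cfg), AdmZ (v₀ s n) 1 (N' s n / 2 : ℕ) Z ζ →
      QE.cexW (exn δ N k p S ψn n) (QE.wq ((2 * Real.cos μ) ^ 2) (N n) (p n) (k n) (S n))
        (fun A' => fzZ (Dc s n) Z ζ (W s n) (H375.cf (p n) (k n) A')) A 0 ≤
          (1 + min ε' 1) * PTZ μ (N' s n) (v₀ s n) (toSh P₀) Z ζ with hRef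
  have hex : ∀ᶠ n in atTop, ∃ P₀ ∈ Fam s, Ref n P₀ := by
    filter_upwards [hzero, hShp', hCmp'] with n hn1 hn2 hn3
    obtain ⟨A, hB, hNS⟩ := hn1
    obtain ⟨P, hP, hi, hc⟩ := hn2 A 0 hB false
    refine ⟨P, hP, A, hB, hc, fun Z ζ hZ => ?_⟩
    have := hn3 A 0 hB false P hP hi (hNS false) Z ζ hZ
    simpa [IneqZ] using this
  -- the shapes at time `0`
  have hne : (Fam s).Nonempty := by
    obtain ⟨n, P, hP, -⟩ := hex.exists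
    exact ⟨P, hP⟩
  obtain ⟨Pd, hPd⟩ := hne
  have hP0 : ∀ n : ℕ, ∃ P₀ : Sh4, P₀ ∈ Fam s ∧ ((∃ P ∈ Fam s, Ref n P) → Ref n P₀) := by
    intro n
    by_cases h : ∃ P ∈ Fam s, Ref n P
    · obtain ⟨P, hP, hc⟩ := h
      exact ⟨P, hP, fun _ => hc⟩
    · exact ⟨Pd, hPd, fun h' => absurd h' h⟩
  choose P₀ hP₀ hP₀' using hP0
  refine ⟨toSh '' Fam s, fun n => toSh (P₀ n), 1 / 2, N' s, (hfin s hs).image _,
    fun n => ⟨P₀ n, hP₀ n, rfl⟩, ?_, by norm_num, by norm_num, hN s hs, h4 s, fun r₀ hr₀ => ?_⟩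
  · rintro _ ⟨P, hP, rfl⟩
    exact hok s hs P hP
  have hbig : ∀ᶠ n in atTop, 1 ≤ r₀ * (N' s n : ℝ) := by
    have h6 : Tendsto (fun n => r₀ * (N' s n : ℝ)) atTop atTop :=
      (tendsto_natCast_atTop_atTop.comp (hN s hs)).const_mul_atTop hr₀
    exact h6.eventually_ge_atTop 1
  filter_upwards [hCl', hAll', hShp', hCmp', hBad', hex, hbig, H411.good_ev H6.appr] with
    n hnC hnA hnS hnP hnB hnz hnb hng
  have hwf : (exn δ N k p S ψn n).WF := H411.DC.expl_wf (H756.wf_of H6 hng) (H6.uni n hng)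
  obtain ⟨A₀, hA₀, hc₀, hU₀⟩ := hP₀' n hnz
  refine ⟨v₀ s n, Dc s n, W s n, hev s n, fun κ hκ => ⟨fun A hA Z ζ hZ => ?_, ?_⟩⟩
  · have hZ' := admZ_one hZ (h4 s n) hnb
    have g1 := hnA A (κ A) A₀ 0 ⟨hA, hκ.2 A hA⟩ hA₀ Z ζ hZ'
    have g2 := hU₀ Z ζ hZ'
    have g3 : (0 : ℝ) ≤ PTZ μ (N' s n) (v₀ s n) (toSh (P₀ n)) Z ζ := by
      unfold PTZ FK.Ex
      refine div_nonneg (Finset.sum_nonneg fun S _ => ?_) (Finset.sum_nonneg fun S _ => ?_)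
      · refine mul_nonneg (pow_nonneg (by linarith) _) ?_
        unfold fzZ
        split_ifs <;> norm_num
      · exact pow_nonneg (by linarith) _
    have g4 : min ε' 1 ≤ 1 := min_le_right _ _
    refine g1.trans ?_
    rw [show 2 * M * PTZ μ (N' s n) (v₀ s n) (toSh (P₀ n)) Z ζ =
      M * (2 * PTZ μ (N' s n) (v₀ s n) (toSh (P₀ n)) Z ζ) by ring]
    refine mul_le_mul_of_nonneg_left (g2.trans ?_) hM.le
    exact mul_le_mul_of_nonneg_right (by linarith) g3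
  · refine le_trans (QE.exW_mono hwf.fin (fun A _ => hw n A)
      (g := ({A | ¬ ∀ c, NS c a s n A (κ A) η} : Set Hst).indicator 1)
      fun A hA => ?_) ((hnB κ hκ).trans (min_le_left _ _))
    by_cases hg : A ∈ ({A | ¬ ∀ c, NS c a s n A (κ A) η} : Set Hst)
    · rw [indicator_of_mem hg]
      exact indicator_le_self' (fun _ _ => zero_le_one) A
    · rw [indicator_of_notMem hg]
      have hgood : ∀ c, NS c a s n A (κ A) η := not_not.1 hg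
      have hB : Bef (exn δ N k p S ψn n) T R A (κ A) := ⟨hA, hκ.2 A hA⟩
      obtain ⟨P1, hP1, hi1, hc1⟩ := hnS A (κ A) hB true
      obtain ⟨P2, hP2, hi2, hc2⟩ := hnS A (κ A) hB false
      have e1 := hnP A (κ A) hB true P1 hP1 hi1 (hgood true)
      have e2 := hnP A (κ A) hB false P2 hP2 hi2 (hgood false)
      rw [indicator_of_notMem]
      intro hcon
      refine hcon ⟨toSh P1, ⟨P1, hP1, rfl⟩, toSh P2, ⟨P2, hP2, rfl⟩, fun Z ζ hZ => ?_, ?_⟩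
      · have hZ' := admZ_one hZ (h4 s n) hnb
        have f1 := e1 Z ζ hZ'
        have f2 := e2 Z ζ hZ'
        simp only [IneqZ, if_true, if_false, Bool.false_eq_true] at f1 f2
        have g3 : ∀ P : Sh, (0 : ℝ) ≤ PTZ μ (N' s n) (v₀ s n) P Z ζ := by
          intro P
          unfold PTZ FK.Ex
          refine div_nonneg (Finset.sum_nonneg fun S _ => ?_) (Finset.sum_nonneg fun S _ => ?_)
          · refine mul_nonneg (pow_nonneg (by linarith) _) ?_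
            unfold fzZ
            split_ifs <;> norm_num
          · exact pow_nonneg (by linarith) _
        have g4 : min ε' 1 ≤ ε' := min_le_left _ _
        refine ⟨le_trans (mul_le_mul_of_nonneg_right (by linarith) (g3 _)) f1, f2.trans
          (mul_le_mul_of_nonneg_right (by linarith) (g3 _))⟩
      · rintro Q (rfl | rfl) u v u₀ w₀ hu hu₀
        · exact hnC A (κ A) A₀ P1 (P₀ n) hB hA₀ hP1 (hP₀ n) hc1 hc₀ u v u₀ w₀ hu hu₀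
        · exact hnC A (κ A) A₀ P2 (P₀ n) hB hA₀ hP2 (hP₀ n) hc2 hc₀ u v u₀ w₀ hu hu₀

end

end Vale.Agent.P167.H712
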